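import Vale.Agent.P209.Main

namespace Vale.Agent.Results.P209.UpToTwoPowN

/-- Sufficiency of the two conditions for at most `2ⁿ` balls, in every dimension. -/
theorem result : ∀ n k : ℕ, 1 ≤ n → k ≤ 2 ^ n → ∀ (R : ℝ) (r : Fin k → ℝ), 0 < R →
    (∀ i, 0 < r i) → ∑ i, r i ^ n < R ^ n → (∀ i j, i < j → r i + r j < R) →
    Vale.Agent.P209.Packs n r R :=
  fun _ _ hn hk _ _ hR hr hvol hpair =>
    Vale.Agent.P209.packs_of_conditions hn hk hR hr hvol hpair

end Vale.Agent.Results.P209.UpToTwoPowN
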